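import Vale.Agent.P096.Main

/-!
Partial answer to P096: the form of the conjecture with `δ` depending on the algebra is equivalent
to the uniform one.
-/

universe u

namespace Vale.Agent.Results.P096.UniformFromPointwise

open Vale.Agent.P096

theorem result :
    (UniformKK.{u} ↔ PerAlgebraKK.{u}) ∧ (UniformKKSep.{u} ↔ PerAlgebraKKSep.{u}) :=
  uniform_iff_perAlgebra

end Vale.Agent.Results.P096.UniformFromPointwise
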